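import Vale.Agent.Lib.P090.Free

namespace Vale.Agent.Lib.P090

open Set

universe u

variable {M : Type u} [MetricSpace M] {o : M}

/-- A base-point preserving `L`-Lipschitz self-map with finite range. -/
structure GoodMap (o : M) (L : ℝ) (r : M → M) : Prop where
  base : r o = o
  lip : ∀ x y, dist (r x) (r y) ≤ L * dist x y
  fin : (Set.range r).Finite

/-- The composition operator `f ↦ f ∘ r` on `Lip_0(M)`. -/
noncomputable def compOp {L : ℝ} (hL : 0 ≤ L) {r : M → M} (hr : GoodMap o L r) :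
    Lip0 M o →L[ℝ] Lip0 M o :=
  LinearMap.mkContinuous
    { toFun := fun f => ⟨fun x => f.fn (r x), by
        refine ⟨by simp [hr.base], f.lipConst * L, fun x y => ?_⟩
        refine (f.abs_sub_le (r x) (r y)).trans ?_
        rw [mul_assoc]
        exact mul_le_mul_of_nonneg_left (hr.lip x y) f.lipConst_nonneg⟩
      map_add' := fun f g => rfl
      map_smul' := fun c f => rfl }
    L
    (by
      intro f
      rw [Lip0.norm_def, Lip0.norm_def]
      apply Lip0.lipConst_le _ (mul_nonneg hL f.lipConst_nonneg)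
      intro x y
      refine (f.abs_sub_le (r x) (r y)).trans ?_
      rw [mul_comm L, mul_assoc]
      exact mul_le_mul_of_nonneg_left (hr.lip x y) f.lipConst_nonneg)

theorem compOp_fn {L : ℝ} (hL : 0 ≤ L) {r : M → M} (hr : GoodMap o L r) (f : Lip0 M o) (x : M) :
    (compOp hL hr f).fn x = f.fn (r x) := rfl

theorem compOp_norm_le {L : ℝ} (hL : 0 ≤ L) {r : M → M} (hr : GoodMap o L r) :
    ‖compOp hL hr‖ ≤ L :=
  LinearMap.mkContinuous_norm_le _ hL _

/-- The adjoint of the composition operator. -/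
noncomputable def adj {L : ℝ} (hL : 0 ≤ L) {r : M → M} (hr : GoodMap o L r) :
    (Lip0 M o →L[ℝ] ℝ) →L[ℝ] (Lip0 M o →L[ℝ] ℝ) :=
  (ContinuousLinearMap.compL ℝ (Lip0 M o) (Lip0 M o) ℝ).flip (compOp hL hr)

theorem adj_apply {L : ℝ} (hL : 0 ≤ L) {r : M → M} (hr : GoodMap o L r)
    (φ : Lip0 M o →L[ℝ] ℝ) : adj hL hr φ = φ.comp (compOp hL hr) := rfl

theorem adj_norm_le {L : ℝ} (hL : 0 ≤ L) {r : M → M} (hr : GoodMap o L r)
    (φ : Lip0 M o →L[ℝ] ℝ) : ‖adj hL hr φ‖ ≤ L * ‖φ‖ := by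
  rw [adj_apply, mul_comm]
  exact (ContinuousLinearMap.opNorm_comp_le _ _).trans
    (mul_le_mul_of_nonneg_left (compOp_norm_le hL hr) (norm_nonneg _))

theorem adj_delta {L : ℝ} (hL : 0 ≤ L) {r : M → M} (hr : GoodMap o L r) (x : M) :
    adj hL hr (delta o x) = delta o (r x) := by
  ext f
  rfl

/-- The finite-dimensional space spanned by the evaluations at the range of `r`. -/
noncomputable def rangeSpan (o : M) (r : M → M) : Submodule ℝ (Lip0 M o →L[ℝ] ℝ) :=
  Submodule.span ℝ (delta o '' Set.range r)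

theorem rangeSpan_finiteDimensional {L : ℝ} {r : M → M} (hr : GoodMap o L r) :
    FiniteDimensional ℝ (rangeSpan o r) :=
  FiniteDimensional.span_of_finite ℝ (hr.fin.image _)

theorem rangeSpan_le (r : M → M) : rangeSpan o r ≤ lipFreeSubmodule M o := by
  refine le_trans (Submodule.span_mono ?_) (Submodule.le_topologicalClosure _)
  rintro _ ⟨y, _, rfl⟩
  exact ⟨y, rfl⟩

theorem adj_mem {L : ℝ} (hL : 0 ≤ L) {r : M → M} (hr : GoodMap o L r)
    (φ : Lip0 M o →L[ℝ] ℝ) (hφ : φ ∈ lipFreeSubmodule M o) : adj hL hr φ ∈ rangeSpan o r := by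
  have := rangeSpan_finiteDimensional hr
  have hclosed : IsClosed ((rangeSpan o r : Submodule ℝ (Lip0 M o →L[ℝ] ℝ)) :
      Set (Lip0 M o →L[ℝ] ℝ)) :=
    Submodule.closed_of_finiteDimensional _
  have hle : lipFreeSubmodule M o ≤ (rangeSpan o r).comap (adj hL hr : _ →ₗ[ℝ] _) := by
    apply Submodule.topologicalClosure_minimal
    · rw [Submodule.span_le]
      rintro _ ⟨x, rfl⟩
      simp only [Submodule.comap_coe, Set.mem_preimage, SetLike.mem_coe,
        ContinuousLinearMap.coe_coe]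
      rw [adj_delta]
      exact Submodule.subset_span ⟨r x, ⟨x, rfl⟩, rfl⟩
    · exact hclosed.preimage (adj hL hr).continuous
  exact hle hφ

/-- The operator induced by `r` on the Lipschitz-free space. -/
noncomputable def freeOp {L : ℝ} (hL : 0 ≤ L) {r : M → M} (hr : GoodMap o L r) :
    LipFree M o →L[ℝ] LipFree M o :=
  LinearMap.mkContinuous
    { toFun := fun φ => ⟨adj hL hr φ.1, rangeSpan_le r (adj_mem hL hr φ.1 φ.2)⟩
      map_add' := fun φ ψ => Subtype.ext (map_add (adj hL hr) φ.1 ψ.1)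
      map_smul' := fun c φ => Subtype.ext (map_smul (adj hL hr) c φ.1) }
    L
    (fun φ => adj_norm_le hL hr φ.1)

theorem freeOp_coe {L : ℝ} (hL : 0 ≤ L) {r : M → M} (hr : GoodMap o L r) (φ : LipFree M o) :
    (freeOp hL hr φ).1 = adj hL hr φ.1 := rfl

theorem freeOp_norm_le {L : ℝ} (hL : 0 ≤ L) {r : M → M} (hr : GoodMap o L r) :
    ‖freeOp hL hr‖ ≤ L :=
  LinearMap.mkContinuous_norm_le _ hL _

theorem freeOp_finiteDimensional {L : ℝ} (hL : 0 ≤ L) {r : M → M} (hr : GoodMap o L r) :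
    FiniteDimensional ℝ (LinearMap.range (freeOp hL hr : LipFree M o →ₗ[ℝ] LipFree M o)) := by
  have := rangeSpan_finiteDimensional hr
  let j : LinearMap.range (freeOp hL hr : LipFree M o →ₗ[ℝ] LipFree M o) →ₗ[ℝ] rangeSpan o r :=
    { toFun := fun ψ => ⟨ψ.1.1, by
        obtain ⟨φ, hφ⟩ := ψ.2
        rw [← hφ]
        exact adj_mem hL hr φ.1 φ.2⟩
      map_add' := fun _ _ => rfl
      map_smul' := fun _ _ => rfl }
  have hj : Function.Injective j := by
    intro a b hab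
    apply Subtype.ext
    apply Subtype.ext
    exact congrArg (fun z : rangeSpan o r => z.1) hab
  exact FiniteDimensional.of_injective (V₂ := rangeSpan o r) j hj

/-- Approximation of a single element. -/
theorem approx_one (φ : Lip0 M o →L[ℝ] ℝ) (hφ : φ ∈ lipFreeSubmodule M o) (η : ℝ) (hη : 0 < η) :
    ∃ F : Finset M, ∀ (L : ℝ) (hL : 0 ≤ L) (r : M → M) (hr : GoodMap o L r),
      (∀ x ∈ F, r x = x) → ‖adj hL hr φ - φ‖ ≤ (L + 1) * η := by
  classical
  have hcl : φ ∈ closure ((Submodule.span ℝ (Set.range (delta o : M → _)) : Submodule ℝ _) : Set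
      (Lip0 M o →L[ℝ] ℝ)) := hφ
  obtain ⟨v, hv, hdist⟩ := (Metric.mem_closure_iff (α := Lip0 M o →L[ℝ] ℝ)).mp hcl η hη
  obtain ⟨U, hU, hvU⟩ := Submodule.mem_span_finite_of_mem_span hv
  have hch : ∀ w ∈ U, ∃ x : M, delta o x = w := fun w hw => hU hw
  have : Nonempty M := ⟨o⟩
  choose! g hg using hch
  refine ⟨U.image g, fun L hL r hr hfix => ?_⟩
  have hAv : adj hL hr v = v := by
    have : Set.EqOn ((adj hL hr : (Lip0 M o →L[ℝ] ℝ) →L[ℝ] (Lip0 M o →L[ℝ] ℝ)) :
        (Lip0 M o →L[ℝ] ℝ) →ₗ[ℝ] (Lip0 M o →L[ℝ] ℝ))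
        (LinearMap.id : (Lip0 M o →L[ℝ] ℝ) →ₗ[ℝ] (Lip0 M o →L[ℝ] ℝ))
        (U : Set (Lip0 M o →L[ℝ] ℝ)) := by
      intro w hw
      have hw' : w ∈ U := hw
      simp only [ContinuousLinearMap.coe_coe, LinearMap.id_coe, id]
      rw [← hg w hw', adj_delta, hfix (g w) (Finset.mem_image_of_mem g hw')]
    exact LinearMap.eqOn_span this hvU
  have h1 : adj hL hr φ - φ = adj hL hr (φ - v) + (v - φ) := by
    rw [map_sub, hAv]
    abel
  rw [h1]
  have h2 : ‖φ - v‖ ≤ η := by
    rw [← dist_eq_norm]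
    exact hdist.le
  have h3 : ‖v - φ‖ ≤ η := by
    rw [norm_sub_rev]
    exact h2
  calc ‖adj hL hr (φ - v) + (v - φ)‖ ≤ ‖adj hL hr (φ - v)‖ + ‖v - φ‖ := norm_add_le _ _
    _ ≤ L * ‖φ - v‖ + ‖v - φ‖ := by
        gcongr
        exact adj_norm_le hL hr _
    _ ≤ L * η + η := by gcongr
    _ = (L + 1) * η := by ring

/-- **Retraction criterion.** If every finite subset of `M` is fixed pointwise by some
`lam`-Lipschitz self-map of `M` with finite range, then `F(M)` has the `lam`-BAP. -/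
theorem bap_of_maps (lam : ℝ) (hlam : 0 ≤ lam)
    (h : ∀ F : Finset M, ∃ r : M → M, (Set.range r).Finite ∧
      (∀ x y, dist (r x) (r y) ≤ lam * dist x y) ∧ ∀ x ∈ F, r x = x) :
    HasBAP lam (LipFree M o) := by
  classical
  intro C hC ε hε
  set η : ℝ := ε / (2 * (lam + 1) + 1) with hηdef
  have hden : 0 < 2 * (lam + 1) + 1 := by linarith
  have hη : 0 < η := div_pos hε hden
  obtain ⟨t, htC, htfin, hcover⟩ := finite_cover_balls_of_compact hC hη
  have hF : ∀ φ : LipFree M o, ∃ F : Finset M, ∀ (L : ℝ) (hL : 0 ≤ L) (r : M → M)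
      (hr : GoodMap o L r), (∀ x ∈ F, r x = x) → ‖adj hL hr φ.1 - φ.1‖ ≤ (L + 1) * η :=
    fun φ => approx_one φ.1 φ.2 η hη
  choose Fs hFs using hF
  obtain ⟨r, hrfin, hrlip, hrfix⟩ := h (insert o (htfin.toFinset.biUnion Fs))
  have hr : GoodMap o lam r := ⟨hrfix o (Finset.mem_insert_self _ _), hrlip, hrfin⟩
  refine ⟨freeOp hlam hr, freeOp_finiteDimensional hlam hr, freeOp_norm_le hlam hr, ?_⟩
  intro w hw
  have hw' := hcover hw
  simp only [Set.mem_iUnion, Metric.mem_ball, exists_prop] at hw'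
  obtain ⟨u, hut, hwu⟩ := hw'
  have hu : ‖freeOp hlam hr u - u‖ ≤ (lam + 1) * η := by
    apply hFs u lam hlam r hr
    intro x hx
    apply hrfix
    apply Finset.mem_insert_of_mem
    rw [Finset.mem_biUnion]
    exact ⟨u, htfin.mem_toFinset.mpr hut, hx⟩
  have hwu' : ‖w - u‖ ≤ η := by
    rw [← dist_eq_norm]
    exact hwu.le
  have h1 : freeOp hlam hr w - w = freeOp hlam hr (w - u) + (freeOp hlam hr u - u) + (u - w) := by
    rw [map_sub]
    abel
  have h2 : ‖freeOp hlam hr (w - u)‖ ≤ lam * η :=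
    ((freeOp hlam hr).le_opNorm _).trans
      (mul_le_mul (freeOp_norm_le hlam hr) hwu' (norm_nonneg _) hlam)
  have h3 : ‖u - w‖ ≤ η := by
    rw [norm_sub_rev]
    exact hwu'
  have h4 : ‖freeOp hlam hr w - w‖ ≤ lam * η + (lam + 1) * η + η := by
    rw [h1]
    exact (norm_add_le _ _).trans (add_le_add ((norm_add_le _ _).trans (add_le_add h2 hu)) h3)
  have h5 : lam * η + (lam + 1) * η + η < ε := by
    have : ε = (2 * (lam + 1) + 1) * η := by
      rw [hηdef]
      field_simp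
    rw [this]
    nlinarith
  exact lt_of_le_of_lt h4 h5

end Vale.Agent.Lib.P090
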