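import Mathlib

namespace Vale.Agent.Lib.P090

open Set

universe u

variable (M : Type u) [MetricSpace M] (o : M)

/-- Lipschitz functions on `M` vanishing at the base point `o`, as a linear subspace. -/
def lip0Submodule : Submodule ℝ (M → ℝ) where
  carrier := {f | f o = 0 ∧ ∃ K : ℝ, ∀ x y, |f x - f y| ≤ K * dist x y}
  zero_mem' := ⟨rfl, 0, by simp⟩
  add_mem' := by
    rintro f g ⟨hf0, K, hK⟩ ⟨hg0, K', hK'⟩
    refine ⟨by simp [hf0, hg0], K + K', fun x y => ?_⟩
    have : (f + g) x - (f + g) y = (f x - f y) + (g x - g y) := by simp; ring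
    rw [this, add_mul]
    exact (abs_add_le _ _).trans (add_le_add (hK x y) (hK' x y))
  smul_mem' := by
    rintro c f ⟨hf0, K, hK⟩
    refine ⟨by simp [hf0], |c| * K, fun x y => ?_⟩
    have : (c • f) x - (c • f) y = c * (f x - f y) := by simp; ring
    rw [this, abs_mul, mul_assoc]
    exact mul_le_mul_of_nonneg_left (hK x y) (abs_nonneg c)

/-- The space `Lip_0(M)`. -/
def Lip0 : Type u := ↥(lip0Submodule M o)

instance : AddCommGroup (Lip0 M o) := (lip0Submodule M o).addCommGroup
instance : Module ℝ (Lip0 M o) := (lip0Submodule M o).module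

variable {M o}

/-- The underlying function. -/
def Lip0.fn (f : Lip0 M o) : M → ℝ := f.1

theorem Lip0.ext {f g : Lip0 M o} (h : ∀ x, f.fn x = g.fn x) : f = g :=
  Subtype.ext (funext h)

@[simp] theorem Lip0.fn_base (f : Lip0 M o) : f.fn o = 0 := f.2.1
@[simp] theorem Lip0.fn_zero (x : M) : (0 : Lip0 M o).fn x = 0 := rfl
@[simp] theorem Lip0.fn_add (f g : Lip0 M o) (x : M) : (f + g).fn x = f.fn x + g.fn x := rfl
@[simp] theorem Lip0.fn_neg (f : Lip0 M o) (x : M) : (-f).fn x = - f.fn x := rfl
@[simp] theorem Lip0.fn_smul (c : ℝ) (f : Lip0 M o) (x : M) : (c • f).fn x = c * f.fn x := rfl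

/-- The Lipschitz constant of `f`: the least `K ≥ 0` with `|f x - f y| ≤ K d(x,y)`. -/
noncomputable def Lip0.lipConst (f : Lip0 M o) : ℝ :=
  sInf {K : ℝ | 0 ≤ K ∧ ∀ x y, |f.fn x - f.fn y| ≤ K * dist x y}

theorem Lip0.lipSet_nonempty (f : Lip0 M o) :
    {K : ℝ | 0 ≤ K ∧ ∀ x y, |f.fn x - f.fn y| ≤ K * dist x y}.Nonempty := by
  obtain ⟨K, hK⟩ := f.2.2
  refine ⟨max K 0, le_max_right _ _, fun x y => (hK x y).trans ?_⟩
  exact mul_le_mul_of_nonneg_right (le_max_left _ _) dist_nonneg

theorem Lip0.lipSet_bddBelow (f : Lip0 M o) :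
    BddBelow {K : ℝ | 0 ≤ K ∧ ∀ x y, |f.fn x - f.fn y| ≤ K * dist x y} :=
  ⟨0, fun _ h => h.1⟩

theorem Lip0.lipConst_nonneg (f : Lip0 M o) : 0 ≤ f.lipConst :=
  le_csInf f.lipSet_nonempty (fun _ h => h.1)

theorem Lip0.lipConst_le (f : Lip0 M o) {K : ℝ} (hK : 0 ≤ K)
    (h : ∀ x y, |f.fn x - f.fn y| ≤ K * dist x y) : f.lipConst ≤ K :=
  csInf_le f.lipSet_bddBelow ⟨hK, h⟩

theorem Lip0.abs_sub_le (f : Lip0 M o) (x y : M) :
    |f.fn x - f.fn y| ≤ f.lipConst * dist x y := by
  rcases eq_or_lt_of_le (dist_nonneg : 0 ≤ dist x y) with h | h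
  · obtain ⟨K, hK⟩ := f.lipSet_nonempty
    have := hK.2 x y
    rw [← h] at this ⊢
    simpa using this
  · rw [← div_le_iff₀ h]
    apply le_csInf f.lipSet_nonempty
    intro K hK
    rw [div_le_iff₀ h]
    exact hK.2 x y

noncomputable instance : NormedAddCommGroup (Lip0 M o) :=
  AddGroupNorm.toNormedAddCommGroup
    { toFun := Lip0.lipConst
      map_zero' := by
        apply le_antisymm _ (Lip0.lipConst_nonneg _)
        exact Lip0.lipConst_le _ le_rfl (by simp)
      add_le' := by
        intro f g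
        apply Lip0.lipConst_le _ (add_nonneg f.lipConst_nonneg g.lipConst_nonneg)
        intro x y
        have : (f + g).fn x - (f + g).fn y = (f.fn x - f.fn y) + (g.fn x - g.fn y) := by
          simp; ring
        rw [this, add_mul]
        exact (abs_add_le _ _).trans (add_le_add (f.abs_sub_le x y) (g.abs_sub_le x y))
      neg' := by
        have key : ∀ f : Lip0 M o, (-f).lipConst ≤ f.lipConst := by
          intro f
          apply Lip0.lipConst_le _ f.lipConst_nonneg
          intro x y
          have : (-f).fn x - (-f).fn y = -(f.fn x - f.fn y) := by simp; ring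
          rw [this, abs_neg]
          exact f.abs_sub_le x y
        intro f
        apply le_antisymm (key f)
        simpa using key (-f)
      eq_zero_of_map_eq_zero' := by
        intro f hf
        apply Lip0.ext
        intro x
        have := f.abs_sub_le x o
        rw [hf] at this
        simpa using this }

theorem Lip0.norm_def (f : Lip0 M o) : ‖f‖ = f.lipConst := rfl

noncomputable instance : NormedSpace ℝ (Lip0 M o) where
  norm_smul_le := by
    intro c f
    rw [Lip0.norm_def, Lip0.norm_def]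
    apply Lip0.lipConst_le _ (mul_nonneg (norm_nonneg c) f.lipConst_nonneg)
    intro x y
    have : (c • f).fn x - (c • f).fn y = c * (f.fn x - f.fn y) := by simp; ring
    rw [this, abs_mul, mul_assoc, Real.norm_eq_abs]
    exact mul_le_mul_of_nonneg_left (f.abs_sub_le x y) (abs_nonneg c)

variable (o) in
/-- Evaluation at `x`, an element of `Lip_0(M)^*`. -/
noncomputable def delta (x : M) : Lip0 M o →L[ℝ] ℝ :=
  LinearMap.mkContinuous
    { toFun := fun f => f.fn x
      map_add' := fun f g => by simp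
      map_smul' := fun c f => by simp }
    (dist x o)
    (by
      intro f
      have := f.abs_sub_le x o
      simp only [Lip0.fn_base, sub_zero] at this
      simp only [Real.norm_eq_abs]
      rw [mul_comm]
      exact this)

@[simp] theorem delta_apply (x : M) (f : Lip0 M o) : delta o x f = f.fn x := rfl

variable (M o) in
/-- The closed linear span of the evaluations in `Lip_0(M)^*`. -/
noncomputable def lipFreeSubmodule : Submodule ℝ (Lip0 M o →L[ℝ] ℝ) :=
  (Submodule.span ℝ (Set.range (delta o : M → (Lip0 M o →L[ℝ] ℝ)))).topologicalClosure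

variable (M o) in
/-- The Lipschitz-free space `F(M)`: the closed linear span of the evaluations in `Lip_0(M)^*`,
with the norm of `Lip_0(M)^*`. -/
def LipFree : Type u := ↥(lipFreeSubmodule M o)

noncomputable instance : NormedAddCommGroup (LipFree M o) :=
  (lipFreeSubmodule M o).normedAddCommGroup
noncomputable instance : NormedSpace ℝ (LipFree M o) :=
  (lipFreeSubmodule M o).normedSpace

/-- The `lam`-bounded approximation property. -/
def HasBAP (lam : ℝ) (X : Type u) [NormedAddCommGroup X] [NormedSpace ℝ X] : Prop :=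
  ∀ C : Set X, IsCompact C → ∀ ε : ℝ, 0 < ε → ∃ T : X →L[ℝ] X,
    FiniteDimensional ℝ (LinearMap.range (T : X →ₗ[ℝ] X)) ∧ ‖T‖ ≤ lam ∧ ∀ u ∈ C, ‖T u - u‖ < ε

end Vale.Agent.Lib.P090
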