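import Vale.Agent.Lib.P090.Criterion

namespace Vale.Agent.Lib.P090

open Set

universe u

theorem clamp_lip (s t : ℝ) : |max 0 (min 1 s) - max 0 (min 1 t)| ≤ |s - t| := by
  have h1 := le_abs_self (s - t)
  have h2 := neg_abs_le (s - t)
  have h3 := abs_nonneg (s - t)
  rw [abs_le]
  constructor <;> (simp only [max_def, min_def]; split_ifs <;> linarith)

variable {X : Type u} [NormedAddCommGroup X] [NormedSpace ℝ X]

/-- The cutoff factor. -/
noncomputable def cutF (R : ℝ) (u : X) : ℝ := max 0 (min 1 (2 - ‖u‖ / R))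

theorem cutF_nonneg (R : ℝ) (u : X) : 0 ≤ cutF R u := le_max_left _ _

theorem cutF_le_one (R : ℝ) (u : X) : cutF R u ≤ 1 :=
  max_le zero_le_one (min_le_left _ _)

theorem cutF_eq_one {R : ℝ} (hR : 0 < R) {u : X} (h : ‖u‖ ≤ R) : cutF R u = 1 := by
  have : ‖u‖ / R ≤ 1 := (div_le_one hR).mpr h
  unfold cutF
  rw [min_eq_left (by linarith), max_eq_right zero_le_one]

theorem cutF_eq_zero {R : ℝ} (hR : 0 < R) {u : X} (h : 2 * R ≤ ‖u‖) : cutF R u = 0 := by
  have : 2 ≤ ‖u‖ / R := (le_div_iff₀ hR).mpr h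
  unfold cutF
  rw [min_eq_right (by linarith), max_eq_left (by linarith)]

theorem cutF_lip {R : ℝ} (hR : 0 < R) (u v : X) : |cutF R u - cutF R v| ≤ ‖u - v‖ / R := by
  refine (clamp_lip _ _).trans ?_
  have : (2 - ‖u‖ / R) - (2 - ‖v‖ / R) = (‖v‖ - ‖u‖) / R := by ring
  rw [this, abs_div, abs_of_pos hR]
  gcongr
  rw [norm_sub_rev]
  exact abs_norm_sub_norm_le v u

/-- The cutoff map: identity on the ball of radius `R`, zero outside the ball of radius `2R`. -/
noncomputable def cut (R : ℝ) (u : X) : X := cutF R u • u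

theorem cut_eq_self {R : ℝ} (hR : 0 < R) {u : X} (h : ‖u‖ ≤ R) : cut R u = u := by
  rw [cut, cutF_eq_one hR h, one_smul]

theorem cut_norm_le {R : ℝ} (hR : 0 < R) (u : X) : ‖cut R u‖ ≤ 2 * R := by
  by_cases h : 2 * R ≤ ‖u‖
  · rw [cut, cutF_eq_zero hR h, zero_smul, norm_zero]
    linarith
  · push Not at h
    rw [cut, norm_smul, Real.norm_eq_abs, abs_of_nonneg (cutF_nonneg R u)]
    calc cutF R u * ‖u‖ ≤ 1 * ‖u‖ := by
          gcongr
          exact cutF_le_one R u
      _ ≤ 2 * R := by linarith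

theorem cut_lip_aux {R : ℝ} (hR : 0 < R) (u v : X) (hv : ‖v‖ ≤ 2 * R) :
    ‖cut R u - cut R v‖ ≤ 3 * ‖u - v‖ := by
  have h1 : cut R u - cut R v = cutF R u • (u - v) + (cutF R u - cutF R v) • v := by
    simp only [cut, smul_sub, sub_smul]
    abel
  rw [h1]
  refine (norm_add_le _ _).trans ?_
  rw [norm_smul, norm_smul, Real.norm_eq_abs, Real.norm_eq_abs, abs_of_nonneg (cutF_nonneg R u)]
  have h2 : cutF R u * ‖u - v‖ ≤ 1 * ‖u - v‖ := by
    gcongr
    exact cutF_le_one R u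
  have h3 : |cutF R u - cutF R v| * ‖v‖ ≤ ‖u - v‖ / R * (2 * R) := by
    gcongr
    exact cutF_lip hR u v
  have h4 : ‖u - v‖ / R * (2 * R) = 2 * ‖u - v‖ := by
    field_simp
  linarith

theorem cut_lip {R : ℝ} (hR : 0 < R) (u v : X) : ‖cut R u - cut R v‖ ≤ 3 * ‖u - v‖ := by
  by_cases hv : ‖v‖ ≤ 2 * R
  · exact cut_lip_aux hR u v hv
  · by_cases hu : ‖u‖ ≤ 2 * R
    · rw [norm_sub_rev, norm_sub_rev u v]
      exact cut_lip_aux hR v u hu
    · push Not at hu hv
      rw [cut, cut, cutF_eq_zero hR hu.le, cutF_eq_zero hR hv.le]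
      simp

/-- Bounded parts of finite-dimensional subspaces are totally bounded. -/
theorem finite_net (E : Submodule ℝ X) [FiniteDimensional ℝ E] (ρ δ : ℝ) (hδ : 0 < δ) :
    ∃ t : Set X, t.Finite ∧ ∀ z ∈ E, ‖z‖ ≤ ρ → ∃ w ∈ t, ‖z - w‖ < δ := by
  have : ProperSpace E := FiniteDimensional.proper_real E
  have hK : IsCompact (Subtype.val '' (Metric.closedBall (0 : E) ρ)) :=
    (isCompact_closedBall (0 : E) ρ).image continuous_subtype_val
  obtain ⟨t, _, htfin, hcover⟩ := finite_cover_balls_of_compact hK hδ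
  refine ⟨t, htfin, fun z hz hzρ => ?_⟩
  have hzK : z ∈ Subtype.val '' (Metric.closedBall (0 : E) ρ) :=
    ⟨⟨z, hz⟩, by simpa using hzρ, rfl⟩
  have := hcover hzK
  simp only [Set.mem_iUnion, Metric.mem_ball, exists_prop] at this
  obtain ⟨w, hw, hd⟩ := this
  exact ⟨w, hw, by rwa [← dist_eq_norm]⟩

/-- **Nets in spaces with the BAP.** -/
theorem bap_of_net (lam : ℝ) (hlam : 0 ≤ lam) (hX : HasBAP lam X) (N : Set X) (a b : ℝ)
    (ha : 0 < a) (hb : 0 ≤ b)
    (hsep : ∀ x ∈ N, ∀ y ∈ N, x ≠ y → a ≤ ‖x - y‖)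
    (hnet : ∀ z : X, ∃ x ∈ N, ‖z - x‖ ≤ b) (o : N) :
    HasBAP (3 * lam + 1 / 2 + 2 * b / a) (LipFree N o) := by
  classical
  have hconst : 0 ≤ 3 * lam + 1 / 2 + 2 * b / a := by positivity
  apply bap_of_maps _ hconst
  intro F
  -- the finite-rank operator
  have hC : IsCompact ((F.image Subtype.val : Finset X) : Set X) := (Finset.finite_toSet _).isCompact
  obtain ⟨T, hTfin, hTnorm, hTapp⟩ := hX _ hC (a / 4) (by positivity)
  have hTF : ∀ x ∈ F, ‖T x.1 - x.1‖ < a / 4 := fun x hx =>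
    hTapp x.1 (by
      rw [Finset.mem_coe, Finset.mem_image]
      exact ⟨x, hx, rfl⟩)
  set R : ℝ := 1 + ∑ x ∈ F, ‖T x.1‖ with hRdef
  have hsum : 0 ≤ ∑ x ∈ F, ‖T x.1‖ := Finset.sum_nonneg (fun _ _ => norm_nonneg _)
  have hR : 0 < R := by linarith
  have hTR : ∀ x ∈ F, ‖T x.1‖ ≤ R := by
    intro x hx
    have := Finset.single_le_sum (f := fun x : N => ‖T x.1‖) (fun _ _ => norm_nonneg _) hx
    linarith
  obtain ⟨t, htfin, ht⟩ := finite_net (LinearMap.range (T : X →ₗ[ℝ] X)) (2 * R) (a / 4)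
    (by positivity)
  -- rounding
  choose ν hνN hν using hnet
  have hπ : ∀ z : X, ∃ w : X, (w ∈ t ∨ w = 0) ∧ ((∃ w' ∈ t, ‖z - w'‖ < a / 4) → ‖z - w‖ < a / 4) := by
    intro z
    by_cases h : ∃ w' ∈ t, ‖z - w'‖ < a / 4
    · obtain ⟨w, hw, hzw⟩ := h
      exact ⟨w, Or.inl hw, fun _ => hzw⟩
    · exact ⟨0, Or.inr rfl, fun h' => absurd h' h⟩
  choose π hπt hπd using hπ
  let r : N → N := fun x => if x ∈ F then x else ⟨ν (π (cut R (T x.1))), hνN _⟩
  have herr : ∀ x : N, ‖(r x).1 - cut R (T x.1)‖ ≤ a / 4 + b := by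
    intro x
    by_cases hx : x ∈ F
    · simp only [r, if_pos hx]
      rw [cut_eq_self hR (hTR x hx), norm_sub_rev]
      linarith [hTF x hx]
    · simp only [r, if_neg hx]
      have hmem : cut R (T x.1) ∈ LinearMap.range (T : X →ₗ[ℝ] X) :=
        Submodule.smul_mem _ _ ⟨x.1, rfl⟩
      have h1 := hπd _ (ht _ hmem (cut_norm_le hR _))
      have h2 := hν (π (cut R (T x.1)))
      calc ‖ν (π (cut R (T x.1))) - cut R (T x.1)‖
          = ‖(cut R (T x.1) - π (cut R (T x.1))) + (π (cut R (T x.1)) - ν (π (cut R (T x.1))))‖ := by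
            rw [← norm_neg]
            congr 1
            abel
        _ ≤ ‖cut R (T x.1) - π (cut R (T x.1))‖ + ‖π (cut R (T x.1)) - ν (π (cut R (T x.1)))‖ :=
            norm_add_le _ _
        _ ≤ a / 4 + b := by linarith
  refine ⟨r, ?_, ?_, ?_⟩
  · -- finite range
    have hfin : ((F : Set N) ∪ (fun w => (⟨ν w, hνN w⟩ : N)) '' (t ∪ {0})).Finite :=
      (Finset.finite_toSet F).union ((htfin.union (Set.finite_singleton 0)).image _)
    apply hfin.subset
    rintro _ ⟨x, rfl⟩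
    by_cases hx : x ∈ F
    · left
      simpa [r, if_pos hx] using hx
    · right
      simp only [r, if_neg hx]
      refine ⟨π (cut R (T x.1)), ?_, rfl⟩
      rcases hπt (cut R (T x.1)) with h | h
      · exact Or.inl h
      · exact Or.inr h
  · intro x y
    by_cases hxy : x = y
    · subst hxy
      simp
    · have hd : a ≤ dist x y := by
        rw [Subtype.dist_eq, dist_eq_norm]
        exact hsep x.1 x.2 y.1 y.2 (fun h => hxy (Subtype.ext h))
      have h1 : dist (r x) (r y) ≤ 2 * (a / 4 + b) + 3 * (lam * dist x y) := by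
        rw [Subtype.dist_eq, dist_eq_norm]
        have e1 : (r x).1 - (r y).1 = ((r x).1 - cut R (T x.1)) + (cut R (T x.1) - cut R (T y.1))
            + (cut R (T y.1) - (r y).1) := by abel
        rw [e1]
        have h2 := herr x
        have h3 := herr y
        rw [norm_sub_rev] at h3
        have h4 := cut_lip hR (T x.1) (T y.1)
        have h5 : ‖T x.1 - T y.1‖ ≤ lam * dist x y := by
          rw [← map_sub, Subtype.dist_eq, dist_eq_norm]
          exact (T.le_opNorm _).trans (mul_le_mul_of_nonneg_right hTnorm (norm_nonneg _))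
        have h6 := norm_add_le (((r x).1 - cut R (T x.1)) + (cut R (T x.1) - cut R (T y.1)))
          (cut R (T y.1) - (r y).1)
        have h7 := norm_add_le ((r x).1 - cut R (T x.1)) (cut R (T x.1) - cut R (T y.1))
        linarith
      have h8 : 2 * (a / 4 + b) ≤ (1 / 2 + 2 * b / a) * dist x y := by
        have : 2 * (a / 4 + b) = (1 / 2 + 2 * b / a) * a := by
          field_simp
          ring
        rw [this]
        gcongr
      calc dist (r x) (r y) ≤ 2 * (a / 4 + b) + 3 * (lam * dist x y) := h1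
        _ ≤ (1 / 2 + 2 * b / a) * dist x y + 3 * (lam * dist x y) := by linarith
        _ = (3 * lam + 1 / 2 + 2 * b / a) * dist x y := by ring
  · intro x hx
    simp only [r, if_pos hx]

end Vale.Agent.Lib.P090
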